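import Vale.Agent.P257.H80.StBP

/-!
# P221, statement layer: standard forms of `BP⟨n⟩`, fp-spectra, extensions of `BP_*` of modules
-/

open CategoryTheory MonoidalCategory OnePoint

noncomputable section

namespace Vale.Agent.P221.StI

open Vale.Agent.P251.St Vale.Agent.P251.St.SHCat Vale.Agent.P257.St

variable {T : SHCat}

/-- the zero map -/
abbrev nul (X Y : T.C) : Hom X Y := 0

/-- the difference of two maps -/
abbrev dif {X Y : T.C} (f g : Hom X Y) : Hom X Y := f - g

/-- `π_k X` -/
abbrev Pi (k : ℤ) (X : T.C) : Type := Hom (sphere T k) X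

/-- `ThickOf Q` is the thick subcategory generated by the class `Q`: the smallest class of spectra
which contains `Q` and `0` and is closed under suspensions (of all integer degrees), cofiber
sequences and retracts (hence under isomorphisms and finite sums). -/
inductive ThickOf (Q : T.C → Prop) : T.C → Prop
  | base {X : T.C} : Q X → ThickOf Q X
  | zero {X : T.C} : ident X = nul X X → ThickOf Q X
  | susp (k : ℤ) {X : T.C} : ThickOf Q X → ThickOf Q (X⟦k⟧)
  | cof {X Y Z : T.C} {f : Hom X Y} {g : Hom Y Z} {h : Hom Z (sus X)} :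
      Dist f g h → ThickOf Q X → ThickOf Q Y → ThickOf Q Z
  | retract {X Y : T.C} (i : Hom X Y) (r : Hom Y X) :
      comp i r = ident X → ThickOf Q Y → ThickOf Q X

/-- `X` is `p`-complete: there are no nonzero maps `W ⟶ X` if `p` is invertible on `W`. -/
def PComplete (p : ℕ) (X : T.C) : Prop :=
  ∀ W : T.C, IsIso (zmul p (ident W)) → ∀ g : Hom W X, g = nul W X

/-- `c : X ⟶ Y` is the `p`-completion of `X`. -/
def IsPCompletion (p : ℕ) {X Y : T.C} (c : Hom X Y) : Prop :=
  PComplete p Y ∧ ∀ Z : T.C, PComplete p Z → ∀ f : Hom X Z, ∃! g : Hom Y Z, comp c g = f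

/-- `π_k X = 0` for all small `k`. -/
def BoundedBelow (X : T.C) : Prop := ∃ N : ℤ, ∀ k < N, ∀ f : Pi k X, f = nul _ X

/-- `π_k f` is bijective for all large `k`. -/
def EvIso {X Y : T.C} (f : Hom X Y) : Prop :=
  ∃ N : ℤ, ∀ k ≥ N, Function.Bijective fun x : Pi k X => comp x f

variable {R : RingSp T} {S : Susp T} {p : ℕ}

/-- `a : R ⊗ X ⟶ X` makes `X` a homotopy `R`-module. -/
def IsAct {X : T.C} (a : Hom (ten R.obj X) X) : Prop :=
  comp (leftInv X) (comp (tenR R.unit X) a) = ident X ∧
    comp (tenR R.mul X) a = comp (assoc R.obj R.obj X) (comp (tenL R.obj a) a)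

/-- `X` is a homotopy module over some (homotopy) commutative ring spectrum `R` which has a complex
orientation, for example over `MU`, `BP`, complex `K`-theory, or an Eilenberg-Mac Lane spectrum. -/
def IsOrModule (S : Susp T) (X : T.C) : Prop :=
  ∃ (R : RingSp T) (_ : Oriented S R) (a : Hom (ten R.obj X) X), IsAct a

/-- `x ∈ π_{2(p^j-1)} R` is a polynomial generator: up to a factor prime to `p` it is the value of a
polynomial `w ∈ ℤ[v_1, v_2, …]` of degree `2(p^j-1)` in which the coefficient of `v_j` is prime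
to `p`. (For `R = BP`, where `π_* R = ℤ_(p)[v_1, v_2, …]`, this means that `x` is the product of a
unit with `v_j`, modulo decomposable elements.) -/
def IsPolyGen (φ : GHom S p R) (j : ℕ) (x : Hom (S.obj (Cn (p ^ j - 1))) R.obj) : Prop :=
  ∃ (m : ℤ) (w : VPoly p (p ^ j - 1)), ¬ (p : ℤ) ∣ m ∧
    ¬ (p : ℤ) ∣ MvPolynomial.coeff (Finsupp.single (j - 1) 1) (w : MvPolynomial ℕ ℤ) ∧
    zmul m x = φ.val w

/-- the multiplication `R ⊗ S^{2k} ⟶ R` by `x ∈ π_{2k} R` -/
abbrev mulBy {k : ℕ} (x : Hom (S.obj (Cn k)) R.obj) : Hom (ten R.obj (S.obj (Cn k))) R.obj :=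
  comp (tenHom (ident R.obj) x) R.mul

/-- `q : R ⟶ C` is the quotient of `R` by the elements `x_{n+1}, x_{n+2}, …` of its homotopy, as a
homotopy `R`-module: it is `R`-linear and onto on homotopy, and the kernel of `π_* q` consists of
the finite sums of products `b_j x_j`, `j > n`. -/
structure IsQuotient (n : ℕ) (x : ∀ j : ℕ, Hom (S.obj (Cn (p ^ j - 1))) R.obj) {C : T.C}
    (a : Hom (ten R.obj C) C) (q : Hom R.obj C) : Prop where
  act : IsAct a
  map : comp R.mul q = comp (tenL R.obj q) a
  surj : ∀ (k : ℤ) (y : Pi k C), ∃ u : Pi k R.obj, comp u q = y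
  ker : ∀ (k : ℤ) (u : Pi k R.obj), comp u q = nul _ C ↔
    ∃ (N : ℕ) (b : ∀ j : ℕ, Pi k (ten R.obj (S.obj (Cn (p ^ j - 1))))),
      u = ∑ j ∈ Finset.Ioc n N, comp (b j) (mulBy (x j))

/-- `B` is a standard form of `BP⟨n⟩_p`: the `p`-completion of the quotient of the Brown-Peterson
spectrum by polynomial generators `x_j` of degree `2(p^j-1)`, `j > n`. -/
def IsStandardForm (S : Susp T) (p n : ℕ) (B : T.C) : Prop :=
  ∃ (P : RingSp T) (o : Oriented S P) (φ : GHom S p P)
    (x : ∀ j : ℕ, Hom (S.obj (Cn (p ^ j - 1))) P.obj)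
    (C : T.C) (a : Hom (ten P.obj C) C) (q : Hom P.obj C) (c : Hom C B),
    IsBrownPeterson p o φ ∧ (∀ j, n < j → IsPolyGen φ j (x j)) ∧ IsQuotient n x a q ∧
      IsPCompletion p c

/-- `V` is a generalised Moore spectrum of type `j ≥ 1`: there are
`V_1, …, V_j = V`, where `V_1` is the cofibre of `p ^ i_0` on the sphere spectrum, `i_0 > 0`, and
`V_{l+1}` is the cofibre of a self map `f : Σ^{2k} V_l ⟶ V_l` which induces the multiplication by
`v_l ^ i_l` on `R_* V_l`, `i_l > 0`: the maps `R ⊗ S^{2k} ⊗ V_l ⟶ R ⊗ V_l` given by `f` and by the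
multiplication with `v_l ^ i_l` are equal on homotopy groups. (Here `R = BP`, and `v_l = φ (v_l)`
are the Hazewinkel generators.) -/
inductive IsGenMoore (φ : GHom S p R) : ℕ → T.C → Prop
  | base {i : ℕ} {V : T.C} {g : Hom T.one V} {h : Hom V (sus T.one)} :
      0 < i → Dist (zmul ((p : ℤ) ^ i) (ident T.one)) g h → IsGenMoore φ 1 V
  | step {j k i : ℕ} {V W : T.C} {f : Hom (ten (S.obj (Cn k)) V) V} {g : Hom V W}
      {h : Hom W (sus (ten (S.obj (Cn k)) V))} {w : VPoly p k} :
      IsGenMoore φ j V → 0 < i → (w : MvPolynomial ℕ ℤ) = vEl p j ^ i →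
        (∀ (m : ℤ) (y : Pi m (ten R.obj (ten (S.obj (Cn k)) V))), comp y (tenL R.obj f) =
          comp y (comp (assocInv R.obj (S.obj (Cn k)) V) (tenR (mulBy (φ.val w)) V))) →
        Dist f g h → IsGenMoore φ (j + 1) W

/-- `X` is an fp-spectrum of fp-type at most `n`: it is `p`-complete and bounded below, and there is
a generalised Moore spectrum `V` of type `n + 1` such that `π_* (X ⊗ V)` is finite. (By the thick
subcategory theorem and the periodicity theorem this holds for some finite `p`-local spectrum `V` of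
type `n + 1` if and only if it holds for all of them, and generalised Moore spectra exist.) -/
def IsFpType (S : Susp T) (p n : ℕ) (X : T.C) : Prop :=
  PComplete p X ∧ BoundedBelow X ∧
    ∃ (P : RingSp T) (o : Oriented S P) (φ : GHom S p P) (V : T.C) (N : ℤ),
      IsBrownPeterson p o φ ∧ IsGenMoore φ (n + 1) V ∧ ∀ k : ℤ, Finite (Pi k (ten X V)) ∧
        (N < |k| → ∀ y : Pi k (ten X V), y = nul _ _)

/-- The operation `e : S^j ⊗ R ⟶ R` of `R` acts on `y ∈ R_k Z = π_k (R ⊗ Z)`: the result is
`S^m ⟶ S^j ⊗ S^k ⟶ S^j ⊗ (R ⊗ Z) ⟶ R ⊗ Z`, where the first map is `u`. -/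
abbrev operate {R Z : T.C} {j k m : ℤ} (e : Hom (ten (sphere T j) R) R)
    (u : Hom (sphere T m) (ten (sphere T j) (sphere T k))) (y : Pi k (ten R Z)) :
    Pi m (ten R Z) :=
  comp u (comp (tenL (sphere T j) y) (comp (assocInv (sphere T j) R Z) (tenR e Z)))

/-- `θ` is (the graph of) a surjective homomorphism `G ⟶ R_* Y`, compatible with all operations of
`R`, where `G ⊆ R_* Z` is a subgroup stable under them: `θ k y z` says that `y ∈ G k`, and that `z`
is its image. -/
structure IsOnto {R Z Y : T.C} (θ : ∀ k : ℤ, Pi k (ten R Z) → Pi k (ten R Y) → Prop) :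
    Prop where
  sub : ∀ (k : ℤ) (y y' : Pi k (ten R Z)) (z z' : Pi k (ten R Y)),
    θ k y z → θ k y' z' → θ k (dif y y') (dif z z')
  zero : ∀ (k : ℤ) (z : Pi k (ten R Y)), θ k (nul _ _) z → z = nul _ _
  surj : ∀ (k : ℤ) (z : Pi k (ten R Y)), ∃ y, θ k y z
  op : ∀ (j k m : ℤ) (e : Hom (ten (sphere T j) R) R)
    (u : Hom (sphere T m) (ten (sphere T j) (sphere T k))) (y : Pi k (ten R Z))
    (z : Pi k (ten R Y)), θ k y z → θ m (operate e u y) (operate e u z)

/-- `G ⊆ R_* Z` is a subgroup stable under all operations of `R`, with a finite filtration by such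
subgroups whose subquotients are isomorphic, compatibly with all operations, to `R_* Y`, where `Y`
is an fp-spectrum of fp-type at most `n` and a homotopy module over some complex oriented ring
spectrum; `Y` may be different in every step. -/
inductive IsExt (S : Susp T) (p n : ℕ) (R Z : T.C) : (∀ k : ℤ, Pi k (ten R Z) → Prop) → Prop
  | zero : IsExt S p n R Z fun _ y => y = nul _ _
  | step {Y : T.C} {θ : ∀ k : ℤ, Pi k (ten R Z) → Pi k (ten R Y) → Prop} :
      IsExt S p n R Z (fun k y => θ k y (nul _ _)) → IsOrModule S Y → IsFpType S p n Y →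
        IsOnto θ → IsExt S p n R Z fun k y => ∃ z, θ k y z

/-- There is a map `Y ⟶ P` such that `π_k Y ⟶ π_k P` is bijective for all large `k`, and either
* `P` is a homotopy module over a complex oriented ring spectrum (not necessarily bounded below, for
  example `p`-complete complex `K`-theory for `n ≥ 1`), and `Y` is an fp-spectrum of fp-type at most
  `n`, or
* `Y` is `p`-complete and bounded below, and `BP_* Y` has a finite filtration, stable under all
  operations of `BP`, with subquotients as in `IsExt`. -/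
def IsGen (S : Susp T) (p n : ℕ) (P : T.C) : Prop :=
  ∃ (Y : T.C) (c : Hom Y P), EvIso c ∧ (IsOrModule S P ∧ IsFpType S p n Y ∨
    PComplete p Y ∧ BoundedBelow Y ∧ ∃ (R : RingSp T) (o : Oriented S R) (φ : GHom S p R)
      (G : ∀ k : ℤ, Pi k (ten R.obj Y) → Prop),
      IsBrownPeterson p o φ ∧ IsExt S p n R.obj Y G ∧ ∀ k y, G k y)

end Vale.Agent.P221.StI
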