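import Vale.Agent.P221.St.FP

/-!
# P221, statement layer: homotopy modules over complex-oriented ring spectra

* `IsOrModule S X` : `X` is a homotopy module over a commutative ring spectrum which has a complex
  orientation;
* `IsFpOrModule S p n X` : moreover `X` is an fp-spectrum of fp-type at most `n`.
-/

open CategoryTheory MonoidalCategory OnePoint

noncomputable section

namespace Vale.Agent.P221.St

open Vale.Agent.P251.St Vale.Agent.P251.St.SHCat Vale.Agent.P257.St

variable {T : SHCat}

/-- `X` is a homotopy module over some (homotopy) commutative ring spectrum `R` which has a complex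
orientation, for example over `MU`, `BP`, complex `K`-theory, or an Eilenberg-Mac Lane spectrum. -/
def IsOrModule (S : Susp T) (X : T.C) : Prop :=
  ∃ (R : RingSp T) (_ : Oriented S R) (a : Hom (ten R.obj X) X), IsAct a

/-- `X` is an fp-spectrum of fp-type at most `n` (it is `p`-complete and bounded below, and there is
a generalised Moore spectrum `V` of type `n + 1` such that `π_* (X ⊗ V)` is finite), and `X` is a
homotopy module over a commutative ring spectrum which has a complex orientation. -/
def IsFpOrModule (S : Susp T) (p n : ℕ) (X : T.C) : Prop :=
  PComplete p X ∧ BoundedBelow X ∧ IsOrModule S X ∧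
    ∃ (P : RingSp T) (o : Oriented S P) (φ : GHom S p P) (V : T.C),
      IsBrownPeterson p o φ ∧ IsGenMoore φ (n + 1) V ∧ TotallyFinite (ten X V)

end Vale.Agent.P221.St
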