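import Vale.Agent.P221.St.LocA

/-!
# P221, statement layer: iterated extensions of modules over the operations of `MU`

* `IsMU o` : complex cobordism;
* `Hlg R Z k` : `R_k Z = π_k (R ⊗ Z)`;
* `operate e u y` : the action of the operations of `R` on `R_* Z`;
* `IsSubquot F G θ` : `θ` is an isomorphism `G / F ≅ R_* Z'` of modules over the operations of `R`,
  where `F ⊆ G ⊆ R_* Z` are stable under the operations;
* `IsExt S p n R M Z G` : `G ⊆ R_* Z` has a finite filtration with subquotients
  `R_* (Σ^{2l} B ⊗ M)`, `B` a standard form of `BP⟨n⟩`;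
* `IsMUExt S p n X` : `MU_* (X / p)` has such a filtration.
-/

open CategoryTheory MonoidalCategory OnePoint

noncomputable section

namespace Vale.Agent.P221.StL

open Vale.Agent.P251.St Vale.Agent.P251.St.SHCat Vale.Agent.P257.St

variable {T : SHCat}

/-- `R`, with the complex orientation `o`, is the complex cobordism spectrum `MU`: it is the initial
commutative ring spectrum with a complex orientation. -/
def IsMU {S : Susp T} {R : RingSp T} (o : Oriented S R) : Prop :=
  ∀ (R' : RingSp T) (o' : Oriented S R'), ∃! f : Hom R.obj R'.obj, IsRingMap f ∧ Carries f o o'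

/-- `R_k Z = π_k (R ⊗ Z)` -/
abbrev Hlg (R Z : T.C) (k : ℤ) : Type := Hom (sphere T k) (ten R Z)

/-- The operation `e : S^j ⊗ R ⟶ R` of `R` acts on `y ∈ π_k (R ⊗ Z)`: the result is
`S^m ⟶ S^j ⊗ S^k ⟶ S^j ⊗ (R ⊗ Z) ⟶ R ⊗ Z`, where the first map is `u`. -/
abbrev operate {R Z : T.C} {j k m : ℤ} (e : Hom (ten (sphere T j) R) R)
    (u : Hom (sphere T m) (ten (sphere T j) (sphere T k))) (y : Hlg R Z k) : Hlg R Z m :=
  comp u (comp (tenL (sphere T j) y) (comp (assocInv (sphere T j) R Z) (tenR e Z)))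

/-- `F k ⊆ G k ⊆ π_k (R ⊗ Z)` are subgroups stable under all operations of `R`, and `θ` is an
isomorphism of `G / F` with `π_* (R ⊗ Z')` which is compatible with all operations. Here `θ` is given
by its graph: `θ k y z` says that `y ∈ G k` and that `z ∈ π_k (R ⊗ Z')` corresponds to the class of
`y` modulo `F k`. -/
structure IsSubquot {R Z Z' : T.C} (F G : ∀ k : ℤ, Hlg R Z k → Prop)
    (θ : ∀ k : ℤ, Hlg R Z k → Hlg R Z' k → Prop) : Prop where
  dom : ∀ (k : ℤ) (y : Hlg R Z k), G k y ↔ ∃ z, θ k y z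
  ker : ∀ (k : ℤ) (y : Hlg R Z k), F k y ↔ θ k y 0
  sub : ∀ (k : ℤ) (y y' : Hlg R Z k) (z z' : Hlg R Z' k),
    θ k y z → θ k y' z' → θ k (y - y') (z - z')
  zero : ∀ (k : ℤ) (z : Hlg R Z' k), θ k 0 z → z = 0
  surj : ∀ (k : ℤ) (z : Hlg R Z' k), ∃ y, θ k y z
  op : ∀ (j k m : ℤ) (e : Hom (ten (sphere T j) R) R)
    (u : Hom (sphere T m) (ten (sphere T j) (sphere T k))) (y : Hlg R Z k) (z : Hlg R Z' k),
    θ k y z → θ m (operate e u y) (operate e u z)

/-- `G k ⊆ π_k (R ⊗ Z)` are subgroups stable under all operations of `R`, and they have a finite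
filtration by such subgroups whose subquotients are isomorphic, compatibly with all operations, to
`π_* (R ⊗ (Σ^{2l} B ⊗ M))` for integers `l` and standard forms `B` of `BP⟨n⟩`; both may be different
in every step. (In the application `M` is the Moore spectrum `S / p`.) -/
inductive IsExt (S : Susp T) (p n : ℕ) (R M Z : T.C) : (∀ k : ℤ, Hlg R Z k → Prop) → Prop
  | zero : IsExt S p n R M Z fun _ y => y = 0
  | step {F G : ∀ k : ℤ, Hlg R Z k → Prop} {B : T.C} {l : ℤ}
      {θ : ∀ k : ℤ, Hlg R Z k → Hlg R (ten (susp (2 * l) B) M) k → Prop} :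
      IsExt S p n R M Z F → IsStandardForm S p n B → IsSubquot F G θ → IsExt S p n R M Z G

/-- `X` is `p`-complete and bounded below, and `MU_* (X / p)` has a finite filtration by subgroups
stable under all operations of `MU` whose subquotients are isomorphic, compatibly with all
operations, to `MU_* (Σ^{2l} B / p)` for integers `l` and standard forms `B` of `BP⟨n⟩`. Here
`Y / p = Y ⊗ M`, where `M` is the cofibre of `p : 𝟙 ⟶ 𝟙`. -/
def IsMUExt (S : Susp T) (p n : ℕ) (X : T.C) : Prop :=
  PComplete p X ∧ BoundedBelow X ∧ ∃ (R : RingSp T) (o : Oriented S R) (M : T.C)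
    (i : Hom T.one M) (d : Hom M (sus T.one)),
    IsMU o ∧ Dist (zmul p (ident T.one)) i d ∧ IsExt S p n R.obj M (ten X M) fun _ _ => True

end Vale.Agent.P221.StL
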