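import Vale.Agent.P257.H80.StBP

/-!
# P221, statement layer: standard forms of `BP⟨n⟩` and thick subcategories

Definitions which enter the final statement (on top of the ones of `P251/St/Base.lean`,
`P251/St/Chrom.lean`, `P257/H702/Statement.lean`, `P257/H702/LawDef.lean`, `P257/H80/StBP.lean`:
stable homotopy categories `T` with a suspension spectrum functor `S`, commutative ring spectra
`RingSp T`, the Brown-Peterson spectrum `IsBrownPeterson`).

* `Thick B` : the thick subcategory generated by `B`;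
* `PComplete`, `IsPCompletion`, `BoundedBelow`;
* `IsAct`, `IsModMap` : homotopy modules over a ring spectrum;
* `IsPolyGen`, `InGen`, `IsQuotient`, `IsStandardForm` : the standard forms of `BP⟨n⟩_p`;
* `IsIterated` : homotopy `BP`-modules whose mod `p` homotopy is a finite iterated extension of even
  suspensions of the modules `BP_* / (p, x_{n+1}, x_{n+2}, …)`.
-/

open CategoryTheory MonoidalCategory OnePoint

noncomputable section

namespace Vale.Agent.P221.St

open Vale.Agent.P251.St Vale.Agent.P251.St.SHCat Vale.Agent.P257.St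

variable {T : SHCat}

/-! ### Thick subcategories, `p`-completion -/

/-- the suspension `Σ^k X` -/
abbrev susp (k : ℤ) (X : T.C) : T.C := X⟦k⟧

/-- `Thick B` is the thick subcategory generated by `B`: the smallest class of spectra which
contains `B` and `0` and is closed under suspensions (of all integer degrees), cofiber sequences
and retracts (hence under isomorphisms and finite sums). -/
inductive Thick (B : T.C) : T.C → Prop
  | base : Thick B B
  | zero {X : T.C} : ident X = 0 → Thick B X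
  | susp (k : ℤ) {X : T.C} : Thick B X → Thick B (susp k X)
  | cof {X Y Z : T.C} {f : Hom X Y} {g : Hom Y Z} {h : Hom Z (sus X)} :
      Dist f g h → Thick B X → Thick B Y → Thick B Z
  | retract {X Y : T.C} (i : Hom X Y) (r : Hom Y X) : comp i r = ident X → Thick B Y → Thick B X

/-- `X` is `p`-complete: there are no nonzero maps `W ⟶ X` if `p` is invertible on `W`. -/
def PComplete (p : ℕ) (X : T.C) : Prop :=
  ∀ W : T.C, IsIso (zmul p (ident W)) → ∀ g : Hom W X, g = 0

/-- `c : X ⟶ Y` is the `p`-completion of `X`. -/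
def IsPCompletion (p : ℕ) {X Y : T.C} (c : Hom X Y) : Prop :=
  PComplete p Y ∧ ∀ Z : T.C, PComplete p Z → ∀ f : Hom X Z, ∃! g : Hom Y Z, comp c g = f

/-- `π_k X = 0` for all small `k`. -/
def BoundedBelow (X : T.C) : Prop := ∃ N : ℤ, ∀ k < N, ∀ f : Hom (sphere T k) X, f = 0

/-- `M` is the cofibre of `p : 𝟙 ⟶ 𝟙` (so that `X ⊗ M` is `X / p`). -/
def IsMoore (p : ℕ) (M : T.C) : Prop :=
  ∃ (i : Hom T.one M) (d : Hom M (sus T.one)), Dist (zmul p (ident T.one)) i d

/-! ### Homotopy modules -/

variable {R : RingSp T}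

/-- `a : R ⊗ X ⟶ X` makes `X` a homotopy `R`-module. -/
def IsAct {X : T.C} (a : Hom (ten R.obj X) X) : Prop :=
  comp (leftInv X) (comp (tenR R.unit X) a) = ident X ∧
    comp (tenR R.mul X) a = comp (assoc R.obj R.obj X) (comp (tenL R.obj a) a)

/-- `f : X ⟶ Y` is a map of homotopy `R`-modules. -/
def IsModMap {X Y : T.C} (a : Hom (ten R.obj X) X) (b : Hom (ten R.obj Y) Y) (f : Hom X Y) :
    Prop :=
  comp a f = comp (tenL R.obj f) b

/-- The `R`-linear extension `R ⊗ Z ⟶ X ⊗ M` of `g : Z ⟶ X ⊗ M`. For `Z = S^l` the product of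
`c ∈ π_{k-l} R = π_k (R ⊗ S^l)` with `g ∈ π_l (X ⊗ M)` is `comp c (linAct a g)`. -/
abbrev linAct {X M Z : T.C} (a : Hom (ten R.obj X) X) (g : Hom Z (ten X M)) :
    Hom (ten R.obj Z) (ten X M) :=
  comp (tenL R.obj g) (comp (assocInv R.obj X M) (tenR a M))

/-! ### Standard forms of `BP⟨n⟩` -/

variable {S : Susp T} {p : ℕ}

/-- `x ∈ π_{2(p^j-1)} R` is a polynomial generator: up to a factor prime to `p` it is the value of a
polynomial `w ∈ ℤ[v_1, v_2, …]` of degree `2(p^j-1)` in which the coefficient of `v_j` is prime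
to `p`. (For `R = BP`, where `π_* R = ℤ_(p)[v_1, v_2, …]`, this means that `x` is the product of a
unit with `v_j`, modulo decomposable elements.) -/
def IsPolyGen (φ : GHom S p R) (j : ℕ) (x : Hom (S.obj (Cn (p ^ j - 1))) R.obj) : Prop :=
  ∃ (m : ℤ) (w : VPoly p (p ^ j - 1)), ¬ (p : ℤ) ∣ m ∧
    ¬ (p : ℤ) ∣ MvPolynomial.coeff (Finsupp.single (j - 1) 1) (w : MvPolynomial ℕ ℤ) ∧
    zmul m x = φ.val w

/-- the multiplication `R ⊗ S^{2k} ⟶ R` by `x ∈ π_{2k} R` -/
abbrev mulBy {k : ℕ} (x : Hom (S.obj (Cn k)) R.obj) : Hom (ten R.obj (S.obj (Cn k))) R.obj :=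
  comp (tenHom (ident R.obj) x) R.mul

/-- `a ∈ π_k (R ⊗ Z)` belongs to the submodule generated by `x_{n+1}, x_{n+2}, …`: it is a finite
sum of products `b_j x_j`, `j > n`. -/
def InGen (n : ℕ) (x : ∀ j : ℕ, Hom (S.obj (Cn (p ^ j - 1))) R.obj) (Z : T.C) {k : ℤ}
    (a : Hom (sphere T k) (ten R.obj Z)) : Prop :=
  ∃ (N : ℕ) (b : ∀ j : ℕ, Hom (sphere T k) (ten (ten R.obj (S.obj (Cn (p ^ j - 1)))) Z)),
    a = ∑ j ∈ Finset.Ioc n N, comp (b j) (tenR (mulBy (x j)) Z)

/-- `q : R ⟶ C` is the quotient of `R` by the elements `x_{n+1}, x_{n+2}, …` of its homotopy, as a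
homotopy `R`-module. -/
structure IsQuotient (n : ℕ) (x : ∀ j : ℕ, Hom (S.obj (Cn (p ^ j - 1))) R.obj) {C : T.C}
    (a : Hom (ten R.obj C) C) (q : Hom R.obj C) : Prop where
  act : IsAct a
  map : IsModMap R.mul a q
  surj : ∀ (k : ℤ) (y : Hom (sphere T k) C), ∃ u : Hom (sphere T k) R.obj, comp u q = y
  ker : ∀ (k : ℤ) (u : Hom (sphere T k) R.obj), comp u q = 0 ↔
    InGen n x T.one (comp u (rightInv R.obj))

/-- `B` is a standard form of `BP⟨n⟩_p`: the `p`-completion of the quotient of the Brown-Peterson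
spectrum by polynomial generators `x_j` of degree `2(p^j-1)`, `j > n`. -/
def IsStandardForm (S : Susp T) (p n : ℕ) (B : T.C) : Prop :=
  ∃ (P : RingSp T) (o : Oriented S P) (φ : GHom S p P)
    (x : ∀ j : ℕ, Hom (S.obj (Cn (p ^ j - 1))) P.obj)
    (C : T.C) (a : Hom (ten P.obj C) C) (q : Hom P.obj C) (c : Hom C B),
    IsBrownPeterson p o φ ∧ (∀ j, n < j → IsPolyGen φ j (x j)) ∧ IsQuotient n x a q ∧
      IsPCompletion p c

/-- `B` is a form of `BP⟨n⟩_p`: it is a `p`-complete homotopy `BP`-module with a `BP`-linear map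
`q : BP ⟶ B` such that `π_* (BP / p) ⟶ π_* (B / p)` is onto, and its kernel is generated by
polynomial generators `x_j` of degree `2(p^j-1)`, `j > n`. (Every standard form is a form, see the
theorem; here the `x_j` may be changed `p`-adically.) -/
def IsForm (S : Susp T) (p n : ℕ) (B : T.C) : Prop :=
  ∃ (P : RingSp T) (o : Oriented S P) (φ : GHom S p P)
    (x : ∀ j : ℕ, Hom (S.obj (Cn (p ^ j - 1))) P.obj)
    (a : Hom (ten P.obj B) B) (q : Hom P.obj B),
    IsBrownPeterson p o φ ∧ (∀ j, n < j → IsPolyGen φ j (x j)) ∧ PComplete p B ∧ IsAct a ∧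
      IsModMap P.mul a q ∧ ∀ M : T.C, IsMoore p M →
        (∀ (k : ℤ) (y : Hom (sphere T k) (ten B M)),
          ∃ u : Hom (sphere T k) (ten P.obj M), comp u (tenR q M) = y) ∧
        ∀ (k : ℤ) (u : Hom (sphere T k) (ten P.obj M)),
          comp u (tenR q M) = 0 ↔ InGen n x M u

/-! ### The class of homotopy `BP`-modules of the theorem -/

/-- `F k ⊆ π_k (C / p)`, where `C` is a homotopy `R`-module, is a submodule with a finite filtration
whose subquotients are `Σ^{2a} R_* / (p, x_{n+1}, x_{n+2}, …)` for integers `a` and polynomial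
generators `x_j` of degree `2(p^j-1)`, `j > n`; both may be different in every step. -/
inductive IsIterated (φ : GHom S p R) (n : ℕ) {C : T.C} (a : Hom (ten R.obj C) C) (M : T.C) :
    (∀ k : ℤ, Hom (sphere T k) (ten C M) → Prop) → Prop
  | zero : IsIterated φ n a M fun _ y => y = 0
  | step {F : ∀ k : ℤ, Hom (sphere T k) (ten C M) → Prop} {l : ℤ}
      {g : Hom (sphere T (2 * l)) (ten C M)}
      {x : ∀ j : ℕ, Hom (S.obj (Cn (p ^ j - 1))) R.obj} :
      IsIterated φ n a M F → (∀ j, n < j → IsPolyGen φ j (x j)) →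
      (∀ (k : ℤ) (c : Hom (sphere T k) (ten R.obj (sphere T (2 * l)))),
        F k (comp c (linAct a g)) ↔ ∃ d : Hom (sphere T k) (ten R.obj (sphere T (2 * l))),
          InGen n x (sphere T (2 * l)) (c - zmul p d)) →
      IsIterated φ n a M fun k y =>
        ∃ c : Hom (sphere T k) (ten R.obj (sphere T (2 * l))), F k (y - comp c (linAct a g))

/-- `X` is the `p`-completion of a bounded below homotopy `BP`-module `C` such that `π_* (C / p)` is
a finite iterated extension of even suspensions of modules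
`BP_* / (p, x_{n+1}, x_{n+2}, …)`, `x_j` polynomial generators of degree `2(p^j-1)`. -/
def IsBPFree (S : Susp T) (p n : ℕ) (X : T.C) : Prop :=
  ∃ (P : RingSp T) (o : Oriented S P) (φ : GHom S p P)
    (C M : T.C) (a : Hom (ten P.obj C) C) (c : Hom C X),
    IsBrownPeterson p o φ ∧ IsAct a ∧ BoundedBelow C ∧ IsMoore p M ∧
      IsIterated φ n a M (fun _ _ => True) ∧ IsPCompletion p c

/-! ### Finitely generated homotopy `BP`-modules -/

/-- The submodule of `π_* X` over `ℤ[v_1, …, v_n]` which is generated by the set `Y` of elements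
of `π_* X`, where `X` is a homotopy module over `R` (by `a`) and `v_j = hazV φ j ∈ π_* R`. -/
inductive Span (φ : GHom S p R) (n : ℕ) {X : T.C} (a : Hom (ten R.obj X) X)
    (Y : Set (Σ k : ℤ, Hom (sphere T k) X)) : ∀ k : ℤ, Hom (sphere T k) X → Prop
  | base {k : ℤ} {y : Hom (sphere T k) X} : ⟨k, y⟩ ∈ Y → Span φ n a Y k y
  | zero (k : ℤ) : Span φ n a Y k 0
  | sub {k : ℤ} {y z : Hom (sphere T k) X} :
      Span φ n a Y k y → Span φ n a Y k z → Span φ n a Y k (y - z)
  | mul {j : ℕ} {k l : ℤ} {y : Hom (sphere T k) X}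
      (e : Hom (sphere T l) (ten (S.obj (Cn (p ^ j - 1))) (sphere T k))) :
      1 ≤ j → j ≤ n → IsIso e → Span φ n a Y k y →
        Span φ n a Y l (comp e (comp (tenHom (hazV φ j) y) a))

/-- The homotopy `R`-module `X` (by `a`) has finitely many homotopy classes such that every element of
`π_* X` is congruent to a `ℤ[v_1, …, v_n]`-linear combination of them modulo `p`. If `X` is
`p`-complete this means that `π_* X` is finitely generated over `ℤ_p[v_1, …, v_n]`. -/
def IsFG (φ : GHom S p R) (n : ℕ) {X : T.C} (a : Hom (ten R.obj X) X) : Prop :=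
  ∃ Y : Set (Σ k : ℤ, Hom (sphere T k) X), Y.Finite ∧
    ∀ (k : ℤ) (z : Hom (sphere T k) X), ∃ z' : Hom (sphere T k) X,
      Span φ n a Y k (z - zmul p z')

/-- `X` is `p`-complete and has the structure of a homotopy `BP`-module such that `π_* X` is finitely
generated over `ℤ_p[v_1, …, v_n]`. -/
def IsBPFinite (S : Susp T) (p n : ℕ) (X : T.C) : Prop :=
  PComplete p X ∧ ∃ (P : RingSp T) (o : Oriented S P) (φ : GHom S p P) (a : Hom (ten P.obj X) X),
    IsBrownPeterson p o φ ∧ IsAct a ∧ IsFG φ n a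

end Vale.Agent.P221.St
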