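import Vale.Agent.P221.St.FpType

/-!
# P221, statement layer: the thick subcategory generated by a class of spectra
-/

open CategoryTheory MonoidalCategory OnePoint

noncomputable section

namespace Vale.Agent.P221.St

open Vale.Agent.P251.St Vale.Agent.P251.St.SHCat Vale.Agent.P257.St

variable {T : SHCat}

/-- `ThickOf Q` is the thick subcategory generated by the class `Q`: the smallest class of spectra
which contains `Q` and `0` and is closed under suspensions (of all integer degrees), cofiber
sequences and retracts. -/
inductive ThickOf (Q : T.C → Prop) : T.C → Prop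
  | base {X : T.C} : Q X → ThickOf Q X
  | zero {X : T.C} : ident X = 0 → ThickOf Q X
  | susp (k : ℤ) {X : T.C} : ThickOf Q X → ThickOf Q (susp k X)
  | cof {X Y Z : T.C} {f : Hom X Y} {g : Hom Y Z} {h : Hom Z (sus X)} :
      Dist f g h → ThickOf Q X → ThickOf Q Y → ThickOf Q Z
  | retract {X Y : T.C} (i : Hom X Y) (r : Hom Y X) :
      comp i r = ident X → ThickOf Q Y → ThickOf Q X

end Vale.Agent.P221.St
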