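import Vale.Agent.P221.St.Statement

/-!
# P221, statement layer: generalised Moore spectra and fp-spectra

* `IsGenMoore φ j V` : `V` is a generalised Moore spectrum `S / (p^{i_0}, v_1^{i_1}, …)` of type `j`;
* `TotallyFinite Y` : `π_* Y` is finite;
* `IsFpModule S p n X` : `X` is a homotopy `BP`-module which is an fp-spectrum of fp-type at most
  `n`.
-/

open CategoryTheory MonoidalCategory OnePoint

noncomputable section

namespace Vale.Agent.P221.St

open Vale.Agent.P251.St Vale.Agent.P251.St.SHCat Vale.Agent.P257.St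

variable {T : SHCat} {S : Susp T} {R : RingSp T} {p : ℕ}

/-- `f : Σ^{2k} V ⟶ V` induces the multiplication by `w ∈ π_{2k} R` on `R_* V`: the maps
`R ⊗ S^{2k} ⊗ V ⟶ R ⊗ V` given by `f` and by the multiplication with `w` are equal on homotopy
groups. -/
def InducesMul {k : ℕ} {V : T.C} (w : Hom (S.obj (Cn k)) R.obj)
    (f : Hom (ten (S.obj (Cn k)) V) V) : Prop :=
  ∀ (m : ℤ) (y : Hom (sphere T m) (ten R.obj (ten (S.obj (Cn k)) V))),
    comp y (tenL R.obj f) =
      comp y (comp (assocInv R.obj (S.obj (Cn k)) V) (tenR (mulBy w) V))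

/-- `V` is a generalised Moore spectrum of type `j ≥ 1`: there are
`V_1, …, V_j = V`, where `V_1` is the cofibre of `p ^ i_0` on the sphere spectrum, `i_0 > 0`, and
`V_{l+1}` is the cofibre of a self map of `V_l` which induces the multiplication by `v_l ^ i_l` on
`R_* V_l`, `i_l > 0`. (Here `R = BP`, and `v_l = φ (v_l)` are the Hazewinkel generators.) -/
inductive IsGenMoore (φ : GHom S p R) : ℕ → T.C → Prop
  | base {i : ℕ} {V : T.C} {g : Hom T.one V} {h : Hom V (sus T.one)} :
      0 < i → Dist (zmul ((p : ℤ) ^ i) (ident T.one)) g h → IsGenMoore φ 1 V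
  | step {j k i : ℕ} {V W : T.C} {f : Hom (ten (S.obj (Cn k)) V) V} {g : Hom V W}
      {h : Hom W (sus (ten (S.obj (Cn k)) V))} {w : VPoly p k} :
      IsGenMoore φ j V → 0 < i → (w : MvPolynomial ℕ ℤ) = vEl p j ^ i →
        InducesMul (φ.val w) f → Dist f g h → IsGenMoore φ (j + 1) W

/-- the groups `π_k Y` are finite, and zero for almost all `k` -/
def TotallyFinite (Y : T.C) : Prop :=
  (∀ k : ℤ, Finite (Hom (sphere T k) Y)) ∧
    ∃ N : ℤ, ∀ k : ℤ, N < |k| → ∀ y : Hom (sphere T k) Y, y = 0

/-- `X` is a homotopy `BP`-module which is an fp-spectrum of fp-type at most `n`: it is `p`-complete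
and bounded below, and there is a generalised Moore spectrum `V` of type `n + 1` such that
`π_* (X ⊗ V)` is finite. -/
def IsFpModule (S : Susp T) (p n : ℕ) (X : T.C) : Prop :=
  PComplete p X ∧ BoundedBelow X ∧
    ∃ (P : RingSp T) (o : Oriented S P) (φ : GHom S p P) (a : Hom (ten P.obj X) X) (V : T.C),
      IsBrownPeterson p o φ ∧ IsAct a ∧ IsGenMoore φ (n + 1) V ∧ TotallyFinite (ten X V)

end Vale.Agent.P221.St
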