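import Vale.Agent.P221.St.OrMod

/-!
# P221, statement layer: fp-spectra of fp-type at most `n`
-/

open CategoryTheory MonoidalCategory OnePoint

noncomputable section

namespace Vale.Agent.P221.St

open Vale.Agent.P251.St Vale.Agent.P251.St.SHCat Vale.Agent.P257.St

variable {T : SHCat}

/-- `X` is an fp-spectrum of fp-type at most `n`: it is `p`-complete and bounded below, and there is
a generalised Moore spectrum `V` of type `n + 1` such that `π_* (X ⊗ V)` is finite. (By the thick
subcategory theorem and the periodicity theorem this holds for some finite `p`-local spectrum `V` of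
type `n + 1` if and only if it holds for all of them, and generalised Moore spectra exist.) -/
def IsFpType (S : Susp T) (p n : ℕ) (X : T.C) : Prop :=
  PComplete p X ∧ BoundedBelow X ∧
    ∃ (P : RingSp T) (o : Oriented S P) (φ : GHom S p P) (V : T.C),
      IsBrownPeterson p o φ ∧ IsGenMoore φ (n + 1) V ∧ TotallyFinite (ten X V)

end Vale.Agent.P221.St
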